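import Vale.Agent.Lib.P074.Defs

namespace Vale.Agent.Lib.P074

open MeasureTheory ENNReal

variable {d : ℕ}

/-- The cube `[-1,1]^d`. -/
def cube (d : ℕ) : Set (E d) := {x | ∀ i, |x i| ≤ 1}

lemma cube_eq_preimage (d : ℕ) :
    cube d = (EuclideanSpace.equiv (Fin d) ℝ).toHomeomorph ⁻¹'
      (Set.pi Set.univ fun _ => Set.Icc (-1 : ℝ) 1) := by
  ext x
  constructor
  · intro hx i _
    exact abs_le.mp (hx i)
  · intro hx i
    exact abs_le.mpr (hx i (Set.mem_univ i))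

lemma isCompact_cube (d : ℕ) : IsCompact (cube d) := by
  rw [cube_eq_preimage, Homeomorph.isCompact_preimage]
  exact isCompact_univ_pi fun _ => isCompact_Icc

lemma convex_cube (d : ℕ) : Convex ℝ (cube d) := by
  intro x hx y hy a b ha hb hab i
  have h1 := hx i
  have h2 := hy i
  have : (a • x + b • y) i = a * x i + b * y i := by simp
  rw [this]
  calc |a * x i + b * y i| ≤ |a * x i| + |b * y i| := abs_add_le _ _
    _ = a * |x i| + b * |y i| := by rw [abs_mul, abs_mul, abs_of_nonneg ha, abs_of_nonneg hb]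
    _ ≤ a * 1 + b * 1 := by gcongr
    _ = 1 := by linarith

lemma ball_subset_cube (d : ℕ) : Metric.ball (0 : E d) 1 ⊆ cube d := by
  intro x hx i
  rw [Metric.mem_ball, dist_zero_right] at hx
  have h := PiLp.norm_apply_le x i
  rw [Real.norm_eq_abs] at h
  linarith

lemma interior_cube_nonempty (d : ℕ) : (interior (cube d)).Nonempty :=
  ⟨0, mem_interior.mpr ⟨Metric.ball 0 1, ball_subset_cube d, Metric.isOpen_ball,
    Metric.mem_ball_self one_pos⟩⟩

/-- Volume of a coordinate box in Euclidean space. -/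
lemma volume_box (a b : Fin d → ℝ) :
    volume {x : E d | ∀ i, a i ≤ x i ∧ x i ≤ b i} = ∏ i, ENNReal.ofReal (b i - a i) := by
  have hset : {x : E d | ∀ i, a i ≤ x i ∧ x i ≤ b i} = (WithLp.ofLp) ⁻¹' (Set.Icc a b) := by
    ext x
    constructor
    · intro hx
      exact ⟨fun i => (hx i).1, fun i => (hx i).2⟩
    · intro hx i
      exact ⟨hx.1 i, hx.2 i⟩
  rw [hset, (PiLp.volume_preserving_ofLp (Fin d)).measure_preimage
    measurableSet_Icc.nullMeasurableSet, Real.volume_Icc_pi]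

lemma measurableSet_box (a b : Fin d → ℝ) :
    MeasurableSet {x : E d | ∀ i, a i ≤ x i ∧ x i ≤ b i} := by
  have hset : {x : E d | ∀ i, a i ≤ x i ∧ x i ≤ b i} =
      ⋂ i, ({x : E d | a i ≤ x i} ∩ {x : E d | x i ≤ b i}) := by
    ext x; simp
  rw [hset]
  refine MeasurableSet.iInter fun i => MeasurableSet.inter ?_ ?_
  · exact (isClosed_le continuous_const (EuclideanSpace.proj i).continuous).measurableSet
  · exact (isClosed_le (EuclideanSpace.proj i).continuous continuous_const).measurableSet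

/-- Lower corner of a box inside the cube restricting only coordinates `i₀` and `i₁`. -/
def lo (i₀ i₁ : Fin d) (a₀ a₁ : ℝ) : Fin d → ℝ :=
  fun i => if i = i₀ then a₀ else if i = i₁ then a₁ else -1

/-- Upper corner of a box inside the cube restricting only coordinates `i₀` and `i₁`. -/
def hi (i₀ i₁ : Fin d) (b₀ b₁ : ℝ) : Fin d → ℝ :=
  fun i => if i = i₀ then b₀ else if i = i₁ then b₁ else 1

/-- The box `{x | a₀ ≤ x i₀ ≤ b₀, a₁ ≤ x i₁ ≤ b₁, -1 ≤ x i ≤ 1 otherwise}`. -/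
def bx (i₀ i₁ : Fin d) (a₀ b₀ a₁ b₁ : ℝ) : Set (E d) :=
  {x | ∀ i, lo i₀ i₁ a₀ a₁ i ≤ x i ∧ x i ≤ hi i₀ i₁ b₀ b₁ i}

lemma measurableSet_bx (i₀ i₁ : Fin d) (a₀ b₀ a₁ b₁ : ℝ) :
    MeasurableSet (bx i₀ i₁ a₀ b₀ a₁ b₁) :=
  measurableSet_box _ _

/-- The product of the side lengths in the unrestricted coordinates. -/
noncomputable def restProd (i₀ i₁ : Fin d) : ℝ :=
  ∏ _i ∈ (Finset.univ.erase i₀).erase i₁, (2 : ℝ)

lemma restProd_pos (i₀ i₁ : Fin d) : 0 < restProd i₀ i₁ :=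
  Finset.prod_pos fun _ _ => by norm_num

lemma volume_bx {i₀ i₁ : Fin d} (h : i₀ ≠ i₁) {a₀ b₀ a₁ b₁ : ℝ} (h0 : a₀ ≤ b₀) (h1 : a₁ ≤ b₁) :
    volume (bx i₀ i₁ a₀ b₀ a₁ b₁) =
      ENNReal.ofReal ((b₀ - a₀) * ((b₁ - a₁) * restProd i₀ i₁)) := by
  unfold bx
  rw [volume_box]
  have hnn : ∀ i ∈ (Finset.univ : Finset (Fin d)),
      0 ≤ hi i₀ i₁ b₀ b₁ i - lo i₀ i₁ a₀ a₁ i := by
    intro i _
    unfold hi lo
    split_ifs <;> linarith
  rw [← ENNReal.ofReal_prod_of_nonneg hnn]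
  congr 1
  rw [← Finset.mul_prod_erase _ _ (Finset.mem_univ i₀),
    ← Finset.mul_prod_erase _ _ (by simp [h.symm] : i₁ ∈ Finset.univ.erase i₀)]
  have e0 : hi i₀ i₁ b₀ b₁ i₀ - lo i₀ i₁ a₀ a₁ i₀ = b₀ - a₀ := by simp [hi, lo]
  have e1 : hi i₀ i₁ b₀ b₁ i₁ - lo i₀ i₁ a₀ a₁ i₁ = b₁ - a₁ := by simp [hi, lo, h.symm]
  rw [e0, e1]
  congr 2
  unfold restProd
  apply Finset.prod_congr rfl
  intro i hi'
  have hi1 : i ≠ i₁ := Finset.ne_of_mem_erase hi'
  have hi0 : i ≠ i₀ := Finset.ne_of_mem_erase (Finset.mem_of_mem_erase hi')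
  simp only [hi, lo, hi0, hi1, if_false]
  norm_num

lemma cube_eq_bx (i₀ i₁ : Fin d) : cube d = bx i₀ i₁ (-1) 1 (-1) 1 := by
  ext x
  constructor
  · intro hx i
    have := abs_le.mp (hx i)
    unfold lo hi
    constructor
    · split_ifs <;> exact this.1
    · split_ifs <;> exact this.2
  · intro hx i
    have := hx i
    unfold lo hi at this
    apply abs_le.mpr
    constructor
    · have h1 := this.1
      split_ifs at h1 <;> exact h1
    · have h2 := this.2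
      split_ifs at h2 <;> exact h2

lemma bx_subset_cube (i₀ i₁ : Fin d) {a₀ b₀ a₁ b₁ : ℝ} (ha0 : -1 ≤ a₀) (hb0 : b₀ ≤ 1)
    (ha1 : -1 ≤ a₁) (hb1 : b₁ ≤ 1) : bx i₀ i₁ a₀ b₀ a₁ b₁ ⊆ cube d := by
  intro x hx i
  have := hx i
  unfold lo hi at this
  apply abs_le.mpr
  constructor
  · have h1 := this.1
    split_ifs at h1 <;> linarith
  · have h2 := this.2
    split_ifs at h2 <;> linarith

lemma volume_cube {i₀ i₁ : Fin d} (h : i₀ ≠ i₁) :
    volume (cube d) = ENNReal.ofReal (4 * restProd i₀ i₁) := by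
  rw [cube_eq_bx i₀ i₁, volume_bx h (by norm_num) (by norm_num)]
  congr 1
  ring

/-- The uniform measure of a box inside the cube. -/
lemma unif_cube_bx {i₀ i₁ : Fin d} (h : i₀ ≠ i₁) {a₀ b₀ a₁ b₁ : ℝ} (ha0 : -1 ≤ a₀)
    (h0 : a₀ ≤ b₀) (hb0 : b₀ ≤ 1) (ha1 : -1 ≤ a₁) (h1 : a₁ ≤ b₁) (hb1 : b₁ ≤ 1) :
    unif (cube d) (bx i₀ i₁ a₀ b₀ a₁ b₁) = ENNReal.ofReal ((b₀ - a₀) * (b₁ - a₁) / 4) := by
  have hP := restProd_pos i₀ i₁
  unfold unif
  rw [Measure.smul_apply, Measure.restrict_apply (measurableSet_bx _ _ _ _ _ _),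
    Set.inter_eq_left.mpr (bx_subset_cube i₀ i₁ ha0 hb0 ha1 hb1), volume_cube h, volume_bx h h0 h1,
    smul_eq_mul, ← ENNReal.ofReal_inv_of_pos (by positivity), ← ENNReal.ofReal_mul (by positivity)]
  congr 1
  field_simp

lemma unif_cube_univ {i₀ i₁ : Fin d} (h : i₀ ≠ i₁) : unif (cube d) Set.univ = 1 := by
  have hP := restProd_pos i₀ i₁
  unfold unif
  rw [Measure.smul_apply, Measure.restrict_apply MeasurableSet.univ, Set.univ_inter,
    volume_cube h, smul_eq_mul, ENNReal.inv_mul_cancel]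
  · simp only [ne_eq, ENNReal.ofReal_eq_zero, not_le]; positivity
  · exact ENNReal.ofReal_ne_top

lemma isProbabilityMeasure_unif_cube {i₀ i₁ : Fin d} (h : i₀ ≠ i₁) :
    IsProbabilityMeasure (unif (cube d)) :=
  ⟨unif_cube_univ h⟩

end Vale.Agent.Lib.P074
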