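import Mathlib

/-!
# P074: definitions for the stability exponent of quadratic optimal transport maps
-/

namespace Vale.Agent.Lib.P074

open MeasureTheory ENNReal

/-- Euclidean space of dimension `d`, with the Euclidean norm. -/
abbrev E (d : ℕ) : Type := EuclideanSpace ℝ (Fin d)

/-- The uniform probability measure on `K`: Lebesgue measure restricted to `K`,
divided by the Lebesgue measure of `K`. -/
noncomputable def unif {d : ℕ} (K : Set (E d)) : Measure (E d) :=
  (volume K)⁻¹ • volume.restrict K

/-- `T` is a quadratic optimal transport map from `ρ` to `μ`: it is Borel, pushes `ρ` forward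
to `μ`, and minimizes the quadratic cost `∫ |x - T x|^2 dρ` among all Borel maps pushing `ρ`
forward to `μ`. -/
def IsOptMap {d : ℕ} (ρ μ : Measure (E d)) (T : E d → E d) : Prop :=
  Measurable T ∧ ρ.map T = μ ∧
    ∀ S : E d → E d, Measurable S → ρ.map S = μ →
      ∫⁻ x, ENNReal.ofReal (‖x - T x‖ ^ 2) ∂ρ ≤ ∫⁻ x, ENNReal.ofReal (‖x - S x‖ ^ 2) ∂ρ

/-- The quadratic Wasserstein distance `W_2(μ, ν)`: the square root of the infimum of
`∫ |y - z|^2 dπ(y, z)` over all couplings `π` of `μ` and `ν`. -/
noncomputable def W2 {d : ℕ} (μ ν : Measure (E d)) : ℝ≥0∞ :=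
  (⨅ π : Measure (E d × E d), ⨅ _ : π.map Prod.fst = μ ∧ π.map Prod.snd = ν,
    ∫⁻ p, ENNReal.ofReal (‖p.1 - p.2‖ ^ 2) ∂π) ^ (1 / 2 : ℝ)

/-- The exponent `α` is admissible in dimension `d`: for every compact convex `K` with nonempty
interior and every nonempty compact `Y` there is a constant `C` such that
`‖T_μ - T_ν‖_{L^2(ρ)} ≤ C * W_2(μ, ν)^α` for all Borel probability measures `μ, ν` supported in
`Y` (that is, with `μ Y = 1` and `ν Y = 1`), where `ρ` is the uniform probability measure on `K` and `T_μ`, `T_ν` are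
(any) quadratic optimal transport maps from `ρ` to `μ`, `ν`. -/
def Admissible (d : ℕ) (α : ℝ) : Prop :=
  ∀ K : Set (E d), IsCompact K → Convex ℝ K → (interior K).Nonempty →
    ∀ Y : Set (E d), IsCompact Y → Y.Nonempty →
      ∃ C : ℝ, ∀ μ ν : Measure (E d), IsProbabilityMeasure μ → IsProbabilityMeasure ν →
        μ Y = 1 → ν Y = 1 →
          ∀ T S : E d → E d, IsOptMap (unif K) μ T → IsOptMap (unif K) ν S →
            eLpNorm (fun x => T x - S x) 2 (unif K) ≤ ENNReal.ofReal C * W2 μ ν ^ α

end Vale.Agent.Lib.P074
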