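import Vale.Agent.Lib.P074.Defs

/-!
# P074: the 1-Wasserstein distance and the corresponding notion of admissible exponent
-/

namespace Vale.Agent.Lib.P074

open MeasureTheory ENNReal

/-- The 1-Wasserstein distance `W_1(μ, ν)`: the infimum of `∫ |y - z| dπ(y, z)` over all
couplings `π` of `μ` and `ν`. -/
noncomputable def W1 {d : ℕ} (μ ν : Measure (E d)) : ℝ≥0∞ :=
  ⨅ π : Measure (E d × E d), ⨅ _ : π.map Prod.fst = μ ∧ π.map Prod.snd = ν,
    ∫⁻ p, ENNReal.ofReal ‖p.1 - p.2‖ ∂π

/-- The exponent `α` is admissible in dimension `d` for the distance `W_1`: the same as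
`Admissible d α`, with `W_1` in place of `W_2`. -/
def Admissible1 (d : ℕ) (α : ℝ) : Prop :=
  ∀ K : Set (E d), IsCompact K → Convex ℝ K → (interior K).Nonempty →
    ∀ Y : Set (E d), IsCompact Y → Y.Nonempty →
      ∃ C : ℝ, ∀ μ ν : Measure (E d), IsProbabilityMeasure μ → IsProbabilityMeasure ν →
        μ Y = 1 → ν Y = 1 →
          ∀ T S : E d → E d, IsOptMap (unif K) μ T → IsOptMap (unif K) ν S →
            eLpNorm (fun x => T x - S x) 2 (unif K) ≤ ENNReal.ofReal C * W1 μ ν ^ α

end Vale.Agent.Lib.P074
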