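import Vale.Agent.Lib.P074.OptMap
import Vale.Agent.Lib.P074.Cube

namespace Vale.Agent.Lib.P074

open MeasureTheory ENNReal

variable {d : ℕ}

/-- The site `e_{i₀} + t e_{i₁}`. -/
noncomputable def yv (i₀ i₁ : Fin d) (t : ℝ) : E d :=
  EuclideanSpace.single i₀ (1 : ℝ) + t • EuclideanSpace.single i₁ (1 : ℝ)

lemma yv_apply_i0 {i₀ i₁ : Fin d} (h : i₀ ≠ i₁) (t : ℝ) : yv i₀ i₁ t i₀ = 1 := by
  simp [yv, h]

lemma yv_apply_i1 {i₀ i₁ : Fin d} (h : i₀ ≠ i₁) (t : ℝ) : yv i₀ i₁ t i₁ = t := by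
  simp [yv, h.symm]

lemma inner_yv (i₀ i₁ : Fin d) (t : ℝ) (x : E d) :
    inner ℝ x (yv i₀ i₁ t) = x i₀ + t * x i₁ := by
  simp [yv, inner_add_right, inner_smul_right, EuclideanSpace.inner_single_right]

lemma yv_ne_zero {i₀ i₁ : Fin d} (h : i₀ ≠ i₁) (t : ℝ) : yv i₀ i₁ t ≠ 0 := by
  intro h0
  have := yv_apply_i0 h t
  rw [h0] at this
  simp at this

lemma norm_yv_sq {i₀ i₁ : Fin d} (h : i₀ ≠ i₁) (t : ℝ) : ‖yv i₀ i₁ t‖ ^ 2 = 1 + t ^ 2 := by
  rw [← real_inner_self_eq_norm_sq, inner_yv, yv_apply_i0 h, yv_apply_i1 h]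
  ring

lemma one_le_norm_yv {i₀ i₁ : Fin d} (h : i₀ ≠ i₁) (t : ℝ) : 1 ≤ ‖yv i₀ i₁ t‖ := by
  have h1 := norm_yv_sq h t
  have h2 : (1 : ℝ) ^ 2 ≤ ‖yv i₀ i₁ t‖ ^ 2 := by rw [h1]; nlinarith [sq_nonneg t]
  exact le_of_sq_le_sq h2 (norm_nonneg _) |> fun h => by simpa using h

lemma norm_yv_le {i₀ i₁ : Fin d} (h : i₀ ≠ i₁) {t : ℝ} (ht : |t| ≤ 1) : ‖yv i₀ i₁ t‖ ≤ 2 := by
  have h1 := norm_yv_sq h t
  have h3 : t ^ 2 ≤ 1 := by
    have := sq_abs t
    nlinarith [abs_nonneg t]
  have h2 : ‖yv i₀ i₁ t‖ ^ 2 ≤ 2 ^ 2 := by rw [h1]; linarith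
  exact le_of_sq_le_sq h2 (by norm_num) |> fun h => by simpa using h

lemma norm_yv_sub (i₀ i₁ : Fin d) (s : ℝ) :
    ‖yv i₀ i₁ s - yv i₀ i₁ (-s)‖ = 2 * |s| := by
  have : yv i₀ i₁ s - yv i₀ i₁ (-s) = (2 * s) • EuclideanSpace.single i₁ (1 : ℝ) := by
    unfold yv
    module
  rw [this, norm_smul]
  simp

/-- An upper bound for `W_2` of two image measures by the cost of the induced coupling. -/
lemma W2_map_le (ρ : Measure (E d)) (F G : E d → E d) (hF : Measurable F) (hG : Measurable G) :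
    W2 (ρ.map F) (ρ.map G) ≤ (∫⁻ x, ENNReal.ofReal (‖F x - G x‖ ^ 2) ∂ρ) ^ (1 / 2 : ℝ) := by
  unfold W2
  apply ENNReal.rpow_le_rpow _ (by norm_num)
  have hFG : Measurable (fun x => (F x, G x)) := hF.prodMk hG
  refine iInf_le_of_le (ρ.map (fun x => (F x, G x))) (iInf_le_of_le ⟨?_, ?_⟩ ?_)
  · rw [Measure.map_map measurable_fst hFG]; rfl
  · rw [Measure.map_map measurable_snd hFG]; rfl
  · have hm : Measurable (fun p : E d × E d => ENNReal.ofReal (‖p.1 - p.2‖ ^ 2)) := by fun_prop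
    rw [lintegral_map hm hFG]

/-- The reflection negating coordinate `i₁`. -/
noncomputable def refl1 (i₁ : Fin d) : E d ≃ₗᵢ[ℝ] E d :=
  LinearIsometryEquiv.piLpCongrRight 2
    (fun i => if i = i₁ then LinearIsometryEquiv.neg ℝ else LinearIsometryEquiv.refl ℝ ℝ)

lemma refl1_apply (i₁ : Fin d) (x : E d) (i : Fin d) :
    refl1 i₁ x i = if i = i₁ then -x i else x i := by
  unfold refl1
  rw [LinearIsometryEquiv.piLpCongrRight_apply]
  by_cases h : i = i₁ <;> simp [h]

lemma refl1_preimage_cube (i₁ : Fin d) : (refl1 i₁) ⁻¹' (cube d) = cube d := by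
  ext x
  constructor
  · intro hx i
    have := hx i
    rw [refl1_apply] at this
    split_ifs at this
    · rwa [abs_neg] at this
    · exact this
  · intro hx i
    show |refl1 i₁ x i| ≤ 1
    rw [refl1_apply]
    split_ifs
    · rw [abs_neg]; exact hx i
    · exact hx i

lemma measurableSet_cube (d : ℕ) : MeasurableSet (cube d) :=
  (isCompact_cube d).isClosed.measurableSet

lemma map_refl1_unif_cube (i₁ : Fin d) :
    (unif (cube d)).map (refl1 i₁) = unif (cube d) := by
  have hmp : MeasurePreserving (refl1 i₁) (volume : Measure (E d)) volume :=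
    (refl1 i₁).measurePreserving
  have h := (hmp.restrict_preimage (measurableSet_cube d)).map_eq
  rw [refl1_preimage_cube] at h
  unfold unif
  rw [Measure.map_smul, h]

lemma inner_refl1_yv {i₀ i₁ : Fin d} (h : i₀ ≠ i₁) (t : ℝ) (x : E d) :
    inner ℝ (refl1 i₁ x) (yv i₀ i₁ t) = inner ℝ x (yv i₀ i₁ (-t)) := by
  rw [inner_yv, inner_yv, refl1_apply, refl1_apply]
  simp [h]

/-- By the reflection symmetry, the two half-space maps with the same target site push the
uniform measure of the cube to the same measure. -/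
lemma map_capMap_symm {i₀ i₁ : Fin d} (h : i₀ ≠ i₁) (t c : ℝ) (z : E d) :
    (unif (cube d)).map (capMap (yv i₀ i₁ (-t)) c z) =
      (unif (cube d)).map (capMap (yv i₀ i₁ t) c z) := by
  have hcomp : capMap (yv i₀ i₁ (-t)) c z = capMap (yv i₀ i₁ t) c z ∘ (refl1 i₁) := by
    funext x
    simp only [capMap, Function.comp_apply, inner_refl1_yv h]
  rw [hcomp, ← Measure.map_map (measurable_capMap _ _ _) (refl1 i₁).continuous.measurable,
    map_refl1_unif_cube]

lemma unif_le_of_inter_subset {K A B : Set (E d)} (hK : MeasurableSet K) (h : A ∩ K ⊆ B) :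
    unif K A ≤ unif K B := by
  unfold unif
  rw [Measure.smul_apply, Measure.smul_apply, Measure.restrict_apply' hK,
    Measure.restrict_apply' hK]
  exact mul_le_mul_right (measure_mono (Set.subset_inter h Set.inter_subset_right)) _

/-- The half-space cell has uniform measure at most `s`. -/
lemma unif_cap_le {i₀ i₁ : Fin d} (h : i₀ ≠ i₁) {s : ℝ} (hs0 : 0 ≤ s) (hs1 : s ≤ 1) :
    unif (cube d) {x : E d | 1 - s ≤ inner ℝ x (yv i₀ i₁ s)} ≤ ENNReal.ofReal s := by
  have hsub : {x : E d | 1 - s ≤ inner ℝ x (yv i₀ i₁ s)} ∩ cube d ⊆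
      bx i₀ i₁ (1 - 2 * s) 1 (-1) 1 := by
    rintro x ⟨hx1, hx2⟩
    have hx1' : 1 - s ≤ x i₀ + s * x i₁ := by rw [← inner_yv]; exact hx1
    have hb := fun i => abs_le.mp (hx2 i)
    intro i
    unfold lo hi
    constructor
    · split_ifs with h0 h1
      · subst h0; nlinarith [(hb i₁).2]
      · exact (hb i).1
      · exact (hb i).1
    · split_ifs with h0 h1
      · exact (hb i).2
      · exact (hb i).2
      · exact (hb i).2
  refine (unif_le_of_inter_subset (measurableSet_cube d) hsub).trans ?_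
  rw [unif_cube_bx h (by linarith) (by linarith) le_rfl le_rfl (by norm_num) le_rfl]
  apply le_of_eq
  congr 1
  ring

lemma eLpNorm_two_eq (f : E d → E d) (μ : Measure (E d)) :
    eLpNorm f 2 μ = (∫⁻ x, ENNReal.ofReal (‖f x‖ ^ 2) ∂μ) ^ (1 / 2 : ℝ) := by
  rw [eLpNorm_eq_lintegral_rpow_enorm_toReal (by norm_num) (by norm_num)]
  have h : ∀ x, ENNReal.ofReal (‖f x‖ ^ 2) = ‖f x‖ₑ ^ 2 := fun x => (enorm_sq_eq _).symm
  simp only [h]
  simp

lemma map_capMap_ball (ρ : Measure (E d)) [IsProbabilityMeasure ρ] (y : E d) (c : ℝ)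
    (hy : ‖y‖ ≤ 2) : (ρ.map (capMap y c y)) (Metric.closedBall (0 : E d) 2) = 1 := by
  rw [Measure.map_apply (measurable_capMap y c y) Metric.isClosed_closedBall.measurableSet]
  have : capMap y c y ⁻¹' (Metric.closedBall (0 : E d) 2) = Set.univ := by
    ext x
    simp only [Set.mem_preimage, Metric.mem_closedBall, dist_zero_right, Set.mem_univ, iff_true,
      capMap]
    split_ifs
    · exact hy
    · simp
  rw [this, measure_univ]

/-- The quantitative core of the counterexample: on the cube `[-1,1]^d`, for every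
`0 < s ≤ 1/2`, there are two-atom targets in the ball of radius `2` whose optimal maps
are at `L^2` distance at least `sqrt (s/16)` while `W_2 ≤ sqrt (4 s^3)`. -/
lemma exists_pair {i₀ i₁ : Fin d} (h : i₀ ≠ i₁) {s : ℝ} (hs0 : 0 < s) (hs1 : s ≤ 1 / 2) :
    ∃ (μ ν : Measure (E d)) (T S : E d → E d),
      IsProbabilityMeasure μ ∧ IsProbabilityMeasure ν ∧
      μ (Metric.closedBall (0 : E d) 2) = 1 ∧ ν (Metric.closedBall (0 : E d) 2) = 1 ∧
      IsOptMap (unif (cube d)) μ T ∧ IsOptMap (unif (cube d)) ν S ∧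
      W2 μ ν ≤ ENNReal.ofReal (4 * s ^ 3) ^ (1 / 2 : ℝ) ∧
      ENNReal.ofReal (s / 16) ^ (1 / 2 : ℝ) ≤ eLpNorm (fun x => T x - S x) 2 (unif (cube d)) := by
  have := isProbabilityMeasure_unif_cube h
  set ρ := unif (cube d) with hρ
  set yp := yv i₀ i₁ s with hyp
  set ym := yv i₀ i₁ (-s) with hym
  set c : ℝ := 1 - s with hc
  have hTm : Measurable (capMap yp c yp) := measurable_capMap _ _ _
  have hSm : Measurable (capMap ym c ym) := measurable_capMap _ _ _
  have hT'm : Measurable (capMap yp c ym) := measurable_capMap _ _ _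
  refine ⟨ρ.map (capMap yp c yp), ρ.map (capMap ym c ym), capMap yp c yp, capMap ym c ym,
    Measure.isProbabilityMeasure_map hTm.aemeasurable,
    Measure.isProbabilityMeasure_map hSm.aemeasurable,
    map_capMap_ball ρ yp c (norm_yv_le h (by rw [abs_of_pos hs0]; linarith)),
    map_capMap_ball ρ ym c (norm_yv_le h (by rw [abs_neg, abs_of_pos hs0]; linarith)),
    isOptMap_capMap ρ yp (yv_ne_zero h s) c, isOptMap_capMap ρ ym (yv_ne_zero h (-s)) c, ?_, ?_⟩
  · -- the Wasserstein bound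
    have hsymm : ρ.map (capMap ym c ym) = ρ.map (capMap yp c ym) := map_capMap_symm h s c ym
    rw [hsymm]
    refine (W2_map_le ρ _ _ hTm hT'm).trans ?_
    apply ENNReal.rpow_le_rpow _ (by norm_num)
    have hind : (fun x => ENNReal.ofReal (‖capMap yp c yp x - capMap yp c ym x‖ ^ 2)) =
        Set.indicator {x : E d | c ≤ inner ℝ x yp} (fun _ => ENNReal.ofReal (‖yp - ym‖ ^ 2)) := by
      funext x
      by_cases hx : c ≤ inner ℝ x yp
      · rw [Set.indicator_of_mem (by exact hx)]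
        simp [capMap, hx]
      · rw [Set.indicator_of_notMem (by exact hx)]
        simp [capMap, hx]
    rw [hind, lintegral_indicator_const (measurableSet_cap yp c)]
    have hn : ENNReal.ofReal (‖yp - ym‖ ^ 2) = ENNReal.ofReal (4 * s ^ 2) := by
      rw [hyp, hym, norm_yv_sub, abs_of_pos hs0]
      congr 1
      ring
    rw [hn]
    have hcap : ρ {x : E d | c ≤ inner ℝ x yp} ≤ ENNReal.ofReal s :=
      unif_cap_le h hs0.le (by linarith)
    calc ENNReal.ofReal (4 * s ^ 2) * ρ {x : E d | c ≤ inner ℝ x yp}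
        ≤ ENNReal.ofReal (4 * s ^ 2) * ENNReal.ofReal s := by gcongr
      _ = ENNReal.ofReal (4 * s ^ 3) := by
          rw [← ENNReal.ofReal_mul (by positivity)]
          congr 1
          ring
  · -- the lower bound on the distance of the maps
    rw [eLpNorm_two_eq]
    apply ENNReal.rpow_le_rpow _ (by norm_num)
    have hD : ρ (bx i₀ i₁ (1 - 3 * s / 2) (1 - s) (1 / 2) 1) = ENNReal.ofReal (s / 16) := by
      rw [hρ, unif_cube_bx h (by linarith) (by linarith) (by linarith) (by norm_num)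
        (by norm_num) le_rfl]
      congr 1
      ring
    rw [← hD, ← one_mul (ρ _), ← lintegral_indicator_const (measurableSet_bx _ _ _ _ _ _)]
    apply lintegral_mono
    intro x
    by_cases hx : x ∈ bx i₀ i₁ (1 - 3 * s / 2) (1 - s) (1 / 2) 1
    · rw [Set.indicator_of_mem hx]
      have h0 := hx i₀
      have h1 := hx i₁
      simp only [lo, hi, if_true, h.symm, if_false] at h0 h1
      have hxp : c ≤ inner ℝ x yp := by
        rw [hyp, inner_yv, hc]
        nlinarith [h0.1, h1.1]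
      have hxm : ¬ c ≤ inner ℝ x ym := by
        rw [hym, inner_yv, hc, not_le]
        nlinarith [h0.2, h1.1]
      have e : capMap yp c yp x - capMap ym c ym x = yp := by
        simp [capMap, hxp, hxm]
      show 1 ≤ ENNReal.ofReal (‖capMap yp c yp x - capMap ym c ym x‖ ^ 2)
      rw [e]
      have := one_le_norm_yv h s
      rw [← ENNReal.ofReal_one]
      apply ENNReal.ofReal_le_ofReal
      rw [← hyp] at this
      nlinarith
    · rw [Set.indicator_of_notMem hx]
      exact zero_le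

end Vale.Agent.Lib.P074
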