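import Vale.Agent.Lib.P074.OptMap

namespace Vale.Agent.Lib.P074

open MeasureTheory ENNReal

variable {d : ℕ}

/-- A hyperplane `{x | ⟪x, y⟫ = c}` with `y ≠ 0` is Lebesgue-null. -/
lemma volume_hyperplane (y : E d) (hy : y ≠ 0) (c : ℝ) :
    volume {x : E d | inner ℝ x y = c} = 0 := by
  set K : Submodule ℝ (E d) := LinearMap.ker (innerSL ℝ y).toLinearMap with hK
  have hKtop : K ≠ ⊤ := by
    intro htop
    have hmem : y ∈ K := by rw [htop]; exact Submodule.mem_top
    have h0 : inner ℝ y y = 0 := by simpa [hK] using hmem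
    exact hy (inner_self_eq_zero.mp h0)
  have hker : volume (K : Set (E d)) = 0 := Measure.addHaar_submodule volume K hKtop
  set p : E d := (c / ‖y‖ ^ 2) • y with hp
  have hyn : ‖y‖ ^ 2 ≠ 0 := by
    have : ‖y‖ ≠ 0 := norm_ne_zero_iff.mpr hy
    positivity
  have hpc : inner ℝ p y = c := by
    rw [hp, inner_smul_left, real_inner_self_eq_norm_sq]
    simp only [conj_trivial]
    field_simp
  have hset : {x : E d | inner ℝ x y = c} = (fun x => x + (-p)) ⁻¹' (K : Set (E d)) := by
    ext x
    simp only [Set.mem_preimage, SetLike.mem_coe, hK, LinearMap.mem_ker]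
    constructor
    · intro hx
      have hx' : inner ℝ x y = c := hx
      show inner ℝ y (x + -p) = 0
      rw [inner_add_right, inner_neg_right, real_inner_comm, hx', real_inner_comm, hpc]
      ring
    · intro hx
      have hx' : inner ℝ y (x + -p) = 0 := hx
      rw [inner_add_right, inner_neg_right, real_inner_comm, real_inner_comm p y, hpc] at hx'
      show inner ℝ x y = c
      linarith
  rw [hset, measure_preimage_add_right]
  exact hker

/-- Uniqueness up to null sets of the optimal map onto a two-atom image measure of a half-space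
map, for an absolutely continuous source with finite cost. -/
theorem capMap_unique (ρ : Measure (E d)) [IsFiniteMeasure ρ] (hρ : ρ ≪ volume) (y : E d)
    (hy : y ≠ 0) (c : ℝ) (hfin : ∫⁻ x, ENNReal.ofReal (‖x - capMap y c y x‖ ^ 2) ∂ρ ≠ ⊤)
    (S : E d → E d) (hS : IsOptMap ρ (ρ.map (capMap y c y)) S) : S =ᵐ[ρ] capMap y c y := by
  obtain ⟨hSm, hSmap, hSopt⟩ := hS
  have hTm : Measurable (capMap y c y) := measurable_capMap y c y
  have hcost : ∫⁻ x, ENNReal.ofReal (‖x - S x‖ ^ 2) ∂ρ ≤
      ∫⁻ x, ENNReal.ofReal (‖x - capMap y c y x‖ ^ 2) ∂ρ := hSopt _ hTm rfl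
  have hy' : (0 : E d) ≠ y := fun h => hy h.symm
  have hmeas : MeasurableSet ({0, y}ᶜ : Set (E d)) :=
    ((measurableSet_singleton (0 : E d)).union (measurableSet_singleton y)).compl
  have hae : ∀ᵐ x ∂ρ, S x = 0 ∨ S x = y := by
    have h1 : ρ.map (capMap y c y) ({0, y}ᶜ) = 0 := by
      rw [Measure.map_apply hTm hmeas]
      have : capMap y c y ⁻¹' ({0, y}ᶜ : Set (E d)) = ∅ := by
        ext x
        simp only [Set.mem_preimage, Set.mem_compl_iff, Set.mem_insert_iff,
          Set.mem_singleton_iff, Set.mem_empty_iff_false, iff_false, not_not, capMap]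
        by_cases hx : c ≤ inner ℝ x y
        · right; simp [hx]
        · left; simp [hx]
      rw [this, measure_empty]
    rw [← hSmap, Measure.map_apply hSm hmeas] at h1
    filter_upwards [measure_eq_zero_iff_ae_notMem.mp h1] with x hx
    simp only [Set.mem_preimage, Set.mem_compl_iff, not_not, Set.mem_insert_iff,
      Set.mem_singleton_iff] at hx
    exact hx
  set a : ℝ := max (‖y‖ ^ 2 - 2 * c) 0 with ha
  set b : ℝ := max (-(‖y‖ ^ 2 - 2 * c)) 0 with hb
  have ha0 : 0 ≤ a := le_max_right _ _
  have hb0 : 0 ≤ b := le_max_right _ _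
  have key : a - b = ‖y‖ ^ 2 - 2 * c := by
    rcases le_total 0 (‖y‖ ^ 2 - 2 * c) with h | h
    · rw [ha, hb, max_eq_left h, max_eq_right (by linarith)]; ring
    · rw [ha, hb, max_eq_right h, max_eq_left (by linarith)]; ring
  let f : E d → ℝ≥0∞ := fun w => if w = y then ENNReal.ofReal a else ENNReal.ofReal b
  have hf : Measurable f :=
    Measurable.ite (measurableSet_singleton y) measurable_const measurable_const
  have e1 : ∀ x, f (S x) = ENNReal.ofReal (if S x = y then a else b) := by
    intro x; simp only [f]; split_ifs <;> rfl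
  have e2 : ∀ x, f (capMap y c y x) = ENNReal.ofReal (if capMap y c y x = y then a else b) := by
    intro x; simp only [f]; split_ifs <;> rfl
  have n1 : ∀ x, 0 ≤ (if S x = y then a else b) := by intro x; split_ifs <;> assumption
  have n2 : ∀ x, 0 ≤ (if capMap y c y x = y then a else b) := by
    intro x; split_ifs <;> assumption
  have hpt : ∀ᵐ x ∂ρ, ENNReal.ofReal (‖x - capMap y c y x‖ ^ 2) + f (S x) ≤
      ENNReal.ofReal (‖x - S x‖ ^ 2) + f (capMap y c y x) := by
    filter_upwards [hae] with x hx
    have h := capMap_pointwise y hy c x (S x) hx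
    rw [e1, e2, ← ENNReal.ofReal_add (by positivity) (n1 x),
      ← ENNReal.ofReal_add (by positivity) (n2 x)]
    exact ENNReal.ofReal_le_ofReal h
  have hfS : Measurable (fun x => f (S x)) := hf.comp hSm
  have hfT : Measurable (fun x => f (capMap y c y x)) := hf.comp hTm
  have heq : ∫⁻ x, f (S x) ∂ρ = ∫⁻ x, f (capMap y c y x) ∂ρ := by
    rw [← lintegral_map hf hSm, ← lintegral_map hf hTm, hSmap]
  have hfinf : ∫⁻ x, f (capMap y c y x) ∂ρ ≠ ⊤ := by
    have hle : ∫⁻ x, f (capMap y c y x) ∂ρ ≤ ∫⁻ _x, (ENNReal.ofReal a + ENNReal.ofReal b) ∂ρ := by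
      apply lintegral_mono
      intro x
      simp only [f]
      split_ifs
      · exact le_self_add
      · exact le_add_self
    refine ne_top_of_le_ne_top ?_ hle
    rw [lintegral_const]
    exact ENNReal.mul_ne_top (by simp) (measure_ne_top _ _)
  have hnorm : Measurable (fun x : E d => ENNReal.ofReal (‖x - S x‖ ^ 2)) := by
    have : Measurable (fun x : E d => x - S x) := measurable_id.sub hSm
    fun_prop
  have hg : (fun x => ENNReal.ofReal (‖x - capMap y c y x‖ ^ 2) + f (S x)) =ᵐ[ρ]
      (fun x => ENNReal.ofReal (‖x - S x‖ ^ 2) + f (capMap y c y x)) := by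
    apply ae_eq_of_ae_le_of_lintegral_le hpt
    · rw [lintegral_add_right _ hfS, heq]
      exact ENNReal.add_ne_top.mpr ⟨hfin, hfinf⟩
    · exact (hnorm.add hfT).aemeasurable
    · rw [lintegral_add_right _ hfS, lintegral_add_right _ hfT, heq]
      gcongr
  have hnull : ρ {x : E d | inner ℝ x y = c} = 0 := hρ (volume_hyperplane y hy c)
  filter_upwards [hg, hae, measure_eq_zero_iff_ae_notMem.mp hnull] with x hgx hx hxc
  have hxc' : inner ℝ x y ≠ c := hxc
  have hxy : ‖x - y‖ ^ 2 = ‖x‖ ^ 2 - 2 * inner ℝ x y + ‖y‖ ^ 2 := norm_sub_sq_real x y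
  rw [e1, e2, ← ENNReal.ofReal_add (by positivity) (n1 x),
    ← ENNReal.ofReal_add (by positivity) (n2 x),
    ENNReal.ofReal_eq_ofReal_iff (add_nonneg (by positivity) (n1 x))
      (add_nonneg (by positivity) (n2 x))] at hgx
  by_cases hxA : c ≤ inner ℝ x y
  · have hT : capMap y c y x = y := by simp [capMap, hxA]
    rcases hx with hS0 | hSy
    · exfalso
      rw [hT, hS0] at hgx
      simp only [hy', if_false, if_true, sub_zero] at hgx
      rw [hxy] at hgx
      apply hxc'
      linarith
    · rw [hT, hSy]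
  · have hT : capMap y c y x = 0 := by simp [capMap, hxA]
    rcases hx with hS0 | hSy
    · rw [hT, hS0]
    · exfalso
      rw [hT, hSy] at hgx
      simp only [hy', if_false, if_true, sub_zero] at hgx
      rw [hxy] at hgx
      apply hxc'
      linarith

end Vale.Agent.Lib.P074
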