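import Vale.Agent.Lib.P074.Main
import Vale.Agent.Lib.P074.Unique

namespace Vale.Agent.Lib.P074

open MeasureTheory ENNReal

variable {d : ℕ}

lemma unif_ac (K : Set (E d)) : unif K ≪ volume := by
  unfold unif
  exact (Measure.AbsolutelyContinuous.smul_left Measure.restrict_le_self.absolutelyContinuous _)

lemma exists_norm_le_cube (d : ℕ) : ∃ R : ℝ, ∀ x ∈ cube d, ‖x‖ ≤ R := by
  obtain ⟨R, hR⟩ := (isCompact_cube d).isBounded.subset_closedBall (0 : E d)
  exact ⟨R, fun x hx => by simpa using hR hx⟩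

lemma cost_capMap_finite {i₀ i₁ : Fin d} (h : i₀ ≠ i₁) (y : E d) (c : ℝ) :
    ∫⁻ x, ENNReal.ofReal (‖x - capMap y c y x‖ ^ 2) ∂(unif (cube d)) ≠ ⊤ := by
  have := isProbabilityMeasure_unif_cube h
  obtain ⟨R, hR⟩ := exists_norm_le_cube d
  have hae : ∀ᵐ x ∂(unif (cube d)), x ∈ cube d := by
    unfold unif
    apply Measure.ae_smul_measure
    exact ae_restrict_mem (measurableSet_cube d)
  have hle : ∫⁻ x, ENNReal.ofReal (‖x - capMap y c y x‖ ^ 2) ∂(unif (cube d)) ≤
      ∫⁻ _x, ENNReal.ofReal ((R + ‖y‖) ^ 2) ∂(unif (cube d)) := by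
    apply lintegral_mono_ae
    filter_upwards [hae] with x hx
    apply ENNReal.ofReal_le_ofReal
    have h1 : ‖x - capMap y c y x‖ ≤ R + ‖y‖ := by
      refine (norm_sub_le _ _).trans (add_le_add (hR x hx) ?_)
      unfold capMap
      split_ifs
      · exact le_rfl
      · simp
    exact pow_le_pow_left₀ (norm_nonneg _) h1 2
  refine ne_top_of_le_ne_top ?_ hle
  rw [lintegral_const]
  exact ENNReal.mul_ne_top ENNReal.ofReal_ne_top (measure_ne_top _ _)

/-- The pair of `exists_pair`, in the parametrization `s = t^2`, together with uniqueness of the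
two optimal maps up to null sets. -/
lemma exists_pair_unique {i₀ i₁ : Fin d} (h : i₀ ≠ i₁) {t : ℝ} (ht0 : 0 < t) (ht1 : t ≤ 1 / 2) :
    ∃ (μ ν : Measure (E d)) (T S : E d → E d),
      IsProbabilityMeasure μ ∧ IsProbabilityMeasure ν ∧
      μ (Metric.closedBall (0 : E d) 2) = 1 ∧ ν (Metric.closedBall (0 : E d) 2) = 1 ∧
      IsOptMap (unif (cube d)) μ T ∧ IsOptMap (unif (cube d)) ν S ∧
      (∀ T' : E d → E d, IsOptMap (unif (cube d)) μ T' → T' =ᵐ[unif (cube d)] T) ∧
      (∀ S' : E d → E d, IsOptMap (unif (cube d)) ν S' → S' =ᵐ[unif (cube d)] S) ∧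
      W2 μ ν ≤ ENNReal.ofReal (2 * t ^ 3) ∧
      ENNReal.ofReal (t / 4) ≤ eLpNorm (fun x => T x - S x) 2 (unif (cube d)) := by
  have hprob := isProbabilityMeasure_unif_cube h
  have hs0 : 0 < t ^ 2 := by positivity
  have hs1 : t ^ 2 ≤ 1 / 2 := by nlinarith
  set ρ := unif (cube d) with hρ
  set yp := yv i₀ i₁ (t ^ 2) with hyp
  set ym := yv i₀ i₁ (-(t ^ 2)) with hym
  set c : ℝ := 1 - t ^ 2 with hc
  have hTm : Measurable (capMap yp c yp) := measurable_capMap _ _ _
  have hSm : Measurable (capMap ym c ym) := measurable_capMap _ _ _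
  have hT'm : Measurable (capMap yp c ym) := measurable_capMap _ _ _
  have e1 : ENNReal.ofReal (t ^ 2 / 16) ^ (1 / 2 : ℝ) = ENNReal.ofReal (t / 4) := by
    rw [ENNReal.ofReal_rpow_of_nonneg (by positivity) (by norm_num)]
    congr 1
    rw [show t ^ 2 / 16 = (t / 4) ^ 2 by ring, ← Real.sqrt_eq_rpow, Real.sqrt_sq (by positivity)]
  have e2 : ENNReal.ofReal (4 * (t ^ 2) ^ 3) ^ (1 / 2 : ℝ) = ENNReal.ofReal (2 * t ^ 3) := by
    rw [ENNReal.ofReal_rpow_of_nonneg (by positivity) (by norm_num)]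
    congr 1
    rw [show 4 * (t ^ 2) ^ 3 = (2 * t ^ 3) ^ 2 by ring, ← Real.sqrt_eq_rpow,
      Real.sqrt_sq (by positivity)]
  refine ⟨ρ.map (capMap yp c yp), ρ.map (capMap ym c ym), capMap yp c yp, capMap ym c ym,
    Measure.isProbabilityMeasure_map hTm.aemeasurable,
    Measure.isProbabilityMeasure_map hSm.aemeasurable,
    map_capMap_ball ρ yp c (norm_yv_le h (by rw [abs_of_pos hs0]; linarith)),
    map_capMap_ball ρ ym c (norm_yv_le h (by rw [abs_neg, abs_of_pos hs0]; linarith)),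
    isOptMap_capMap ρ yp (yv_ne_zero h _) c, isOptMap_capMap ρ ym (yv_ne_zero h _) c,
    fun T' hT' => capMap_unique ρ (unif_ac _) yp (yv_ne_zero h _) c
      (cost_capMap_finite h yp c) T' hT',
    fun S' hS' => capMap_unique ρ (unif_ac _) ym (yv_ne_zero h _) c
      (cost_capMap_finite h ym c) S' hS', ?_, ?_⟩
  · -- the Wasserstein bound
    rw [← e2]
    have hsymm : ρ.map (capMap ym c ym) = ρ.map (capMap yp c ym) :=
      map_capMap_symm h (t ^ 2) c ym
    rw [hsymm]
    refine (W2_map_le ρ _ _ hTm hT'm).trans ?_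
    apply ENNReal.rpow_le_rpow _ (by norm_num)
    have hind : (fun x => ENNReal.ofReal (‖capMap yp c yp x - capMap yp c ym x‖ ^ 2)) =
        Set.indicator {x : E d | c ≤ inner ℝ x yp}
          (fun _ => ENNReal.ofReal (‖yp - ym‖ ^ 2)) := by
      funext x
      by_cases hx : c ≤ inner ℝ x yp
      · rw [Set.indicator_of_mem (by exact hx)]
        simp [capMap, hx]
      · rw [Set.indicator_of_notMem (by exact hx)]
        simp [capMap, hx]
    rw [hind, lintegral_indicator_const (measurableSet_cap yp c)]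
    have hn : ENNReal.ofReal (‖yp - ym‖ ^ 2) = ENNReal.ofReal (4 * (t ^ 2) ^ 2) := by
      rw [hyp, hym, norm_yv_sub, abs_of_pos hs0]
      congr 1
      ring
    rw [hn]
    have hcap : ρ {x : E d | c ≤ inner ℝ x yp} ≤ ENNReal.ofReal (t ^ 2) :=
      unif_cap_le h hs0.le (by linarith)
    calc ENNReal.ofReal (4 * (t ^ 2) ^ 2) * ρ {x : E d | c ≤ inner ℝ x yp}
        ≤ ENNReal.ofReal (4 * (t ^ 2) ^ 2) * ENNReal.ofReal (t ^ 2) := by gcongr
      _ = ENNReal.ofReal (4 * (t ^ 2) ^ 3) := by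
          rw [← ENNReal.ofReal_mul (by positivity)]
          congr 1
          ring
  · -- the lower bound on the distance of the maps
    rw [← e1, eLpNorm_two_eq]
    apply ENNReal.rpow_le_rpow _ (by norm_num)
    have hD : ρ (bx i₀ i₁ (1 - 3 * t ^ 2 / 2) (1 - t ^ 2) (1 / 2) 1) =
        ENNReal.ofReal (t ^ 2 / 16) := by
      rw [hρ, unif_cube_bx h (by linarith) (by linarith) (by linarith) (by norm_num)
        (by norm_num) le_rfl]
      congr 1
      ring
    rw [← hD, ← one_mul (ρ _), ← lintegral_indicator_const (measurableSet_bx _ _ _ _ _ _)]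
    apply lintegral_mono
    intro x
    by_cases hx : x ∈ bx i₀ i₁ (1 - 3 * t ^ 2 / 2) (1 - t ^ 2) (1 / 2) 1
    · rw [Set.indicator_of_mem hx]
      have h0 := hx i₀
      have h1 := hx i₁
      simp only [lo, hi, if_true, h.symm, if_false] at h0 h1
      have hxp : c ≤ inner ℝ x yp := by
        rw [hyp, inner_yv, hc]
        nlinarith [h0.1, h1.1]
      have hxm : ¬ c ≤ inner ℝ x ym := by
        rw [hym, inner_yv, hc, not_le]
        nlinarith [h0.2, h1.1]
      have e : capMap yp c yp x - capMap ym c ym x = yp := by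
        simp [capMap, hxp, hxm]
      show 1 ≤ ENNReal.ofReal (‖capMap yp c yp x - capMap ym c ym x‖ ^ 2)
      rw [e]
      have := one_le_norm_yv h (t ^ 2)
      rw [← ENNReal.ofReal_one]
      apply ENNReal.ofReal_le_ofReal
      rw [← hyp] at this
      nlinarith
    · rw [Set.indicator_of_notMem hx]
      exact zero_le

end Vale.Agent.Lib.P074

namespace Vale.Agent.Lib.P074

open MeasureTheory ENNReal

/-- Explicit quantitative form: on the cube, for every `0 < t ≤ 1/2` there are two-atom targets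
with unique optimal maps, `W_2 ≤ 2 t^3` and `L^2` distance of the maps at least `t/4`. -/
theorem explicit_quantitative (d : ℕ) (hd : 2 ≤ d) :
    ∃ K : Set (E d), IsCompact K ∧ Convex ℝ K ∧ (interior K).Nonempty ∧
      ∀ t : ℝ, 0 < t → t ≤ 1 / 2 →
        ∃ (μ ν : Measure (E d)) (T S : E d → E d),
          IsProbabilityMeasure μ ∧ IsProbabilityMeasure ν ∧
          μ (Metric.closedBall (0 : E d) 2) = 1 ∧ ν (Metric.closedBall (0 : E d) 2) = 1 ∧
          IsOptMap (unif K) μ T ∧ IsOptMap (unif K) ν S ∧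
          (∀ T' : E d → E d, IsOptMap (unif K) μ T' → T' =ᵐ[unif K] T) ∧
          (∀ S' : E d → E d, IsOptMap (unif K) ν S' → S' =ᵐ[unif K] S) ∧
          W2 μ ν ≤ ENNReal.ofReal (2 * t ^ 3) ∧
          ENNReal.ofReal (t / 4) ≤ eLpNorm (fun x => T x - S x) 2 (unif K) := by
  let i₀ : Fin d := ⟨0, by omega⟩
  let i₁ : Fin d := ⟨1, by omega⟩
  have h : i₀ ≠ i₁ := by
    intro h01
    have := congrArg Fin.val h01
    simp [i₀, i₁] at this
  exact ⟨cube d, isCompact_cube d, convex_cube d, interior_cube_nonempty d,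
    fun t ht0 ht1 => exists_pair_unique h ht0 ht1⟩

/-- Explicit failure of every Hoelder bound with exponent above `1/3`, with unique optimal maps. -/
theorem explicit_failure (d : ℕ) (hd : 2 ≤ d) :
    ∃ K Y : Set (E d), IsCompact K ∧ Convex ℝ K ∧ (interior K).Nonempty ∧ IsCompact Y ∧
      ∀ α : ℝ, 1 / 3 < α → ∀ C : ℝ,
        ∃ (μ ν : Measure (E d)) (T S : E d → E d),
          IsProbabilityMeasure μ ∧ IsProbabilityMeasure ν ∧ μ Y = 1 ∧ ν Y = 1 ∧
          IsOptMap (unif K) μ T ∧ IsOptMap (unif K) ν S ∧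
          (∀ T' : E d → E d, IsOptMap (unif K) μ T' → T' =ᵐ[unif K] T) ∧
          (∀ S' : E d → E d, IsOptMap (unif K) ν S' → S' =ᵐ[unif K] S) ∧
          ENNReal.ofReal C * W2 μ ν ^ α < eLpNorm (fun x => T x - S x) 2 (unif K) := by
  let i₀ : Fin d := ⟨0, by omega⟩
  let i₁ : Fin d := ⟨1, by omega⟩
  have h : i₀ ≠ i₁ := by
    intro h01
    have := congrArg Fin.val h01
    simp [i₀, i₁] at this
  refine ⟨cube d, Metric.closedBall 0 2, isCompact_cube d, convex_cube d,
    interior_cube_nonempty d, isCompact_closedBall 0 2, ?_⟩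
  intro α hα C
  have hC'0 : 0 < max C 1 := lt_of_lt_of_le one_pos (le_max_right _ _)
  obtain ⟨t, ht0, ht1, htC⟩ := exists_small (max C 1) hC'0 α hα
  obtain ⟨μ, ν, T, S, hμ, hν, hμY, hνY, hT, hS, hTu, hSu, hW, hL⟩ := exists_pair_unique h ht0 ht1
  refine ⟨μ, ν, T, S, hμ, hν, hμY, hνY, hT, hS, hTu, hSu, ?_⟩
  have hα0 : 0 ≤ α := by linarith
  have hW' : W2 μ ν ^ α ≤ ENNReal.ofReal ((2 * t ^ 3) ^ α) := by
    rw [← ENNReal.ofReal_rpow_of_nonneg (by positivity) hα0]
    exact ENNReal.rpow_le_rpow hW hα0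
  calc ENNReal.ofReal C * W2 μ ν ^ α
      ≤ ENNReal.ofReal (max C 1) * ENNReal.ofReal ((2 * t ^ 3) ^ α) :=
        mul_le_mul' (ENNReal.ofReal_le_ofReal (le_max_left _ _)) hW'
    _ = ENNReal.ofReal (max C 1 * (2 * t ^ 3) ^ α) := (ENNReal.ofReal_mul hC'0.le).symm
    _ < ENNReal.ofReal (t / 4) := (ENNReal.ofReal_lt_ofReal_iff (by positivity)).mpr htC
    _ ≤ eLpNorm (fun x => T x - S x) 2 (unif (cube d)) := hL

end Vale.Agent.Lib.P074
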