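import Vale.Agent.Lib.P074.Example

namespace Vale.Agent.Lib.P074

open MeasureTheory ENNReal

variable {d : ℕ}

/-- For `α > 1/3` and any constant, a small parameter `t` breaks the Hoelder bound. -/
lemma exists_small (C : ℝ) (hC : 0 < C) (α : ℝ) (hα : 1 / 3 < α) :
    ∃ t : ℝ, 0 < t ∧ t ≤ 1 / 2 ∧ C * (2 * t ^ 3) ^ α < t / 4 := by
  set γ : ℝ := 3 * α - 1 with hγ
  have hγ0 : 0 < γ := by rw [hγ]; linarith
  have h2α : (0 : ℝ) < 2 ^ α := Real.rpow_pos_of_pos (by norm_num) α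
  set M : ℝ := 1 / (8 * C * 2 ^ α) with hM
  have hM0 : 0 < M := by rw [hM]; positivity
  have hMγ : 0 < M ^ (1 / γ) := Real.rpow_pos_of_pos hM0 _
  refine ⟨min (1 / 2) (M ^ (1 / γ)), lt_min (by norm_num) hMγ, min_le_left _ _, ?_⟩
  set t : ℝ := min (1 / 2) (M ^ (1 / γ)) with ht
  have ht0 : 0 < t := lt_min (by norm_num) hMγ
  have htγ : t ^ γ ≤ M := by
    calc t ^ γ ≤ (M ^ (1 / γ)) ^ γ :=
          Real.rpow_le_rpow ht0.le (min_le_right _ _) hγ0.le
      _ = M := by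
          rw [← Real.rpow_mul hM0.le, one_div, inv_mul_cancel₀ hγ0.ne', Real.rpow_one]
  have e1 : (2 * t ^ 3) ^ α = 2 ^ α * (t * t ^ γ) := by
    rw [Real.mul_rpow (by norm_num) (by positivity)]
    congr 1
    rw [← Real.rpow_natCast t 3, ← Real.rpow_mul ht0.le]
    have : ((3 : ℕ) : ℝ) * α = 1 + γ := by rw [hγ]; push_cast; ring
    rw [this, Real.rpow_add ht0, Real.rpow_one]
  rw [e1]
  have h8 : C * 2 ^ α * M = 1 / 8 := by
    rw [hM]; field_simp
  calc C * (2 ^ α * (t * t ^ γ)) = t * (C * 2 ^ α * t ^ γ) := by ring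
    _ ≤ t * (C * 2 ^ α * M) := by gcongr
    _ = t / 8 := by rw [h8]; ring
    _ < t / 4 := by linarith

/-- **Main result**: in every dimension `d ≥ 2`, no exponent `α > 1/3` is admissible. -/
theorem not_admissible (d : ℕ) (hd : 2 ≤ d) (α : ℝ) (hα : 1 / 3 < α) : ¬ Admissible d α := by
  intro hA
  let i₀ : Fin d := ⟨0, by omega⟩
  let i₁ : Fin d := ⟨1, by omega⟩
  have h : i₀ ≠ i₁ := by
    intro h01
    have := congrArg Fin.val h01
    simp [i₀, i₁] at this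
  obtain ⟨C, hC⟩ := hA (cube d) (isCompact_cube d) (convex_cube d) (interior_cube_nonempty d)
    (Metric.closedBall 0 2) (isCompact_closedBall 0 2) ⟨0, by simp⟩
  have hC'0 : 0 < max C 1 := lt_of_lt_of_le one_pos (le_max_right _ _)
  obtain ⟨t, ht0, ht1, htC⟩ := exists_small (max C 1) hC'0 α hα
  obtain ⟨μ, ν, T, S, hμ, hν, hμY, hνY, hT, hS, hW, hL⟩ :=
    exists_pair h (s := t ^ 2) (by positivity) (by nlinarith)
  have key := hC μ ν hμ hν hμY hνY T S hT hS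
  have e1 : ENNReal.ofReal (t ^ 2 / 16) ^ (1 / 2 : ℝ) = ENNReal.ofReal (t / 4) := by
    rw [ENNReal.ofReal_rpow_of_nonneg (by positivity) (by norm_num)]
    congr 1
    rw [show t ^ 2 / 16 = (t / 4) ^ 2 by ring, ← Real.sqrt_eq_rpow, Real.sqrt_sq (by positivity)]
  have e2 : ENNReal.ofReal (4 * (t ^ 2) ^ 3) ^ (1 / 2 : ℝ) = ENNReal.ofReal (2 * t ^ 3) := by
    rw [ENNReal.ofReal_rpow_of_nonneg (by positivity) (by norm_num)]
    congr 1
    rw [show 4 * (t ^ 2) ^ 3 = (2 * t ^ 3) ^ 2 by ring, ← Real.sqrt_eq_rpow,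
      Real.sqrt_sq (by positivity)]
  have hα0 : 0 ≤ α := by linarith
  have hW' : W2 μ ν ^ α ≤ ENNReal.ofReal ((2 * t ^ 3) ^ α) := by
    rw [← ENNReal.ofReal_rpow_of_nonneg (by positivity) hα0]
    exact ENNReal.rpow_le_rpow (hW.trans_eq e2) hα0
  have hfin : ENNReal.ofReal (t / 4) ≤ ENNReal.ofReal (max C 1 * (2 * t ^ 3) ^ α) := by
    calc ENNReal.ofReal (t / 4) = ENNReal.ofReal (t ^ 2 / 16) ^ (1 / 2 : ℝ) := e1.symm
      _ ≤ eLpNorm (fun x => T x - S x) 2 (unif (cube d)) := hL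
      _ ≤ ENNReal.ofReal C * W2 μ ν ^ α := key
      _ ≤ ENNReal.ofReal (max C 1) * ENNReal.ofReal ((2 * t ^ 3) ^ α) :=
          mul_le_mul' (ENNReal.ofReal_le_ofReal (le_max_left _ _)) hW'
      _ = ENNReal.ofReal (max C 1 * (2 * t ^ 3) ^ α) :=
          (ENNReal.ofReal_mul hC'0.le).symm
  rw [ENNReal.ofReal_le_ofReal_iff (by positivity)] at hfin
  linarith

/-- Consequently the supremum of the admissible exponents is at most `1/3`. -/
theorem sSup_admissible_le (d : ℕ) (hd : 2 ≤ d) :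
    sSup {α : ℝ | 0 < α ∧ α ≤ 1 ∧ Admissible d α} ≤ 1 / 3 := by
  apply Real.sSup_le
  · rintro α ⟨_, _, hA⟩
    by_contra hlt
    exact not_admissible d hd α (not_le.mp hlt) hA
  · norm_num

end Vale.Agent.Lib.P074
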