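import Vale.Agent.Lib.P074.Defs

namespace Vale.Agent.Lib.P074

open MeasureTheory ENNReal

variable {d : ℕ}

/-- The two-valued map attached to a half-space `{x | c ≤ ⟪x, y⟫}`. -/
noncomputable def capMap (y : E d) (c : ℝ) (z : E d) : E d → E d :=
  fun x => if c ≤ inner ℝ x y then z else 0

lemma measurableSet_cap (y : E d) (c : ℝ) : MeasurableSet {x : E d | c ≤ inner ℝ x y} :=
  (isClosed_le continuous_const (continuous_id.inner continuous_const)).measurableSet

lemma measurable_capMap (y : E d) (c : ℝ) (z : E d) : Measurable (capMap y c z) :=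
  Measurable.ite (measurableSet_cap y c) measurable_const measurable_const

/-- Pointwise duality inequality behind the optimality of `capMap y c y`. -/
lemma capMap_pointwise (y : E d) (hy : y ≠ 0) (c : ℝ) (x w : E d) (hw : w = 0 ∨ w = y) :
    ‖x - capMap y c y x‖ ^ 2 + (if w = y then max (‖y‖ ^ 2 - 2 * c) 0 else max (-(‖y‖ ^ 2 - 2 * c)) 0)
      ≤ ‖x - w‖ ^ 2 +
        (if capMap y c y x = y then max (‖y‖ ^ 2 - 2 * c) 0 else max (-(‖y‖ ^ 2 - 2 * c)) 0) := by
  have hy' : (0 : E d) ≠ y := fun h => hy h.symm
  have key : max (‖y‖ ^ 2 - 2 * c) 0 - max (-(‖y‖ ^ 2 - 2 * c)) 0 = ‖y‖ ^ 2 - 2 * c := by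
    rcases le_total 0 (‖y‖ ^ 2 - 2 * c) with h | h
    · rw [max_eq_left h, max_eq_right (by linarith)]; ring
    · rw [max_eq_right h, max_eq_left (by linarith)]; ring
  have hxy : ‖x - y‖ ^ 2 = ‖x‖ ^ 2 - 2 * inner ℝ x y + ‖y‖ ^ 2 := norm_sub_sq_real x y
  unfold capMap
  by_cases hx : c ≤ inner ℝ x y
  · rcases hw with rfl | rfl
    · simp only [hx, if_true, hy', if_false, sub_zero]
      rw [hxy]; linarith
    · simp only [hx, if_true]
      exact le_refl _
  · rcases hw with rfl | rfl
    · simp only [hx, if_false, hy', sub_zero]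
      exact le_refl _
    · simp only [hx, if_false, hy', if_true, sub_zero]
      rw [hxy]
      push Not at hx
      linarith



lemma enorm_sq_eq (v : E d) : ‖v‖ₑ ^ 2 = ENNReal.ofReal (‖v‖ ^ 2) := by
  rw [← ofReal_norm, ENNReal.ofReal_pow (norm_nonneg _)]

/-- The two-valued map attached to a half-space is an optimal transport map onto its image
measure (the easy direction of Brenier's theorem, proved by hand). -/
lemma isOptMap_capMap (ρ : Measure (E d)) [IsFiniteMeasure ρ] (y : E d) (hy : y ≠ 0) (c : ℝ) :
    IsOptMap ρ (ρ.map (capMap y c y)) (capMap y c y) := by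
  refine ⟨measurable_capMap y c y, rfl, ?_⟩
  intro S hS hSmap
  have hTm : Measurable (capMap y c y) := measurable_capMap y c y
  have hmeas : MeasurableSet ({0, y}ᶜ : Set (E d)) :=
    ((measurableSet_singleton (0 : E d)).union (measurableSet_singleton y)).compl
  have hae : ∀ᵐ x ∂ρ, S x = 0 ∨ S x = y := by
    have h1 : ρ.map (capMap y c y) ({0, y}ᶜ) = 0 := by
      rw [Measure.map_apply hTm hmeas]
      have : capMap y c y ⁻¹' ({0, y}ᶜ : Set (E d)) = ∅ := by
        ext x
        simp only [Set.mem_preimage, Set.mem_compl_iff, Set.mem_insert_iff,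
          Set.mem_singleton_iff, Set.mem_empty_iff_false, iff_false, not_not, capMap]
        by_cases hx : c ≤ inner ℝ x y
        · right; simp [hx]
        · left; simp [hx]
      rw [this, measure_empty]
    rw [← hSmap, Measure.map_apply hS hmeas] at h1
    filter_upwards [measure_eq_zero_iff_ae_notMem.mp h1] with x hx
    simp only [Set.mem_preimage, Set.mem_compl_iff, not_not, Set.mem_insert_iff,
      Set.mem_singleton_iff] at hx
    exact hx
  set a : ℝ := max (‖y‖ ^ 2 - 2 * c) 0 with ha
  set b : ℝ := max (-(‖y‖ ^ 2 - 2 * c)) 0 with hb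
  have ha0 : 0 ≤ a := le_max_right _ _
  have hb0 : 0 ≤ b := le_max_right _ _
  let f : E d → ℝ≥0∞ := fun w => if w = y then ENNReal.ofReal a else ENNReal.ofReal b
  have hf : Measurable f :=
    Measurable.ite (measurableSet_singleton y) measurable_const measurable_const
  have hpt : ∀ᵐ x ∂ρ, ENNReal.ofReal (‖x - capMap y c y x‖ ^ 2) + f (S x) ≤
      ENNReal.ofReal (‖x - S x‖ ^ 2) + f (capMap y c y x) := by
    filter_upwards [hae] with x hx
    have h := capMap_pointwise y hy c x (S x) hx
    have e1 : f (S x) = ENNReal.ofReal (if S x = y then a else b) := by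
      simp only [f]; split_ifs <;> rfl
    have e2 : f (capMap y c y x) = ENNReal.ofReal (if capMap y c y x = y then a else b) := by
      simp only [f]; split_ifs <;> rfl
    have n1 : 0 ≤ (if S x = y then a else b) := by split_ifs <;> assumption
    have n2 : 0 ≤ (if capMap y c y x = y then a else b) := by split_ifs <;> assumption
    rw [e1, e2, ← ENNReal.ofReal_add (by positivity) n1,
      ← ENNReal.ofReal_add (by positivity) n2]
    exact ENNReal.ofReal_le_ofReal h
  have hint := lintegral_mono_ae hpt
  have hfS : Measurable (fun x => f (S x)) := hf.comp hS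
  have hfT : Measurable (fun x => f (capMap y c y x)) := hf.comp hTm
  rw [lintegral_add_right _ hfS, lintegral_add_right _ hfT] at hint
  have heq : ∫⁻ x, f (S x) ∂ρ = ∫⁻ x, f (capMap y c y x) ∂ρ := by
    rw [← lintegral_map hf hS, ← lintegral_map hf hTm, hSmap]
  have hfin : ∫⁻ x, f (capMap y c y x) ∂ρ ≠ ⊤ := by
    have hle : ∫⁻ x, f (capMap y c y x) ∂ρ ≤ ∫⁻ _x, (ENNReal.ofReal a + ENNReal.ofReal b) ∂ρ := by
      apply lintegral_mono
      intro x
      simp only [f]
      split_ifs
      · exact le_self_add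
      · exact le_add_self
    refine ne_top_of_le_ne_top ?_ hle
    rw [lintegral_const]
    exact ENNReal.mul_ne_top (by simp) (measure_ne_top _ _)
  rw [heq] at hint
  exact ENNReal.le_of_add_le_add_right hfin hint

end Vale.Agent.Lib.P074
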